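import Vale.Agent.P249.Defs
import Vale.Agent.P249.Discretize
import Vale.Agent.P249.Full.Growth

/-!
Dimension reduction in L_p with distortion arbitrarily close to one and dimension a subpolynomial
function of the number of points.
-/

namespace Vale.Agent.Results.P249.SubpolyUpper

open Vale.Agent.P249 Vale.Agent.P249.Sub Vale.Agent.P249.Full MeasureTheory Filter

theorem result (p : ℝ) (hp : 1 < p) (D : ℝ) (hD : 1 < D) (δ : ℝ) (hδ : 0 < δ) :
    ∀ᶠ n : ℕ in atTop, ∃ d : ℕ, (d : ℝ) ≤ (n : ℝ) ^ δ ∧ AdmitsDim p D n d := by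
  classical
  have hp1 : 1 ≤ p := hp.le
  have hp0 : 0 < p := by linarith
  set η := min ((D - 1) / 40) (1 / 40) with hη_def
  have hη : 0 < η := lt_min (by linarith) (by norm_num)
  have hη40 : η ≤ 1 / 40 := min_le_right _ _
  have hηD : 40 * η ≤ D - 1 := by linarith [show η ≤ (D - 1) / 40 from min_le_left _ _]
  set M := ⌈1 / η⌉₊
  obtain ⟨γ, hγ, hγ1, Kv, hKv, a, ha, hev⟩ := exists_params hp hη (by linarith) M hδ
  filter_upwards [hev, eventually_ge_atTop 2] with n hn hn2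
  obtain ⟨hwd, hΓbig, herr, hdim⟩ := hn
  set Q := compDim p η (famA p γ Kv (Real.log n) (a * Real.log n))
    (famW p γ Kv (Real.log n)) n M with hQdef
  have hQ : 0 ≤ Q := by rw [hQdef, compDim]; exact sq_nonneg _
  refine ⟨⌊Q⌋₊, (Nat.floor_le hQ).trans hdim, ?_⟩
  intro Ω mΩ μ X hX
  have : Fact (1 ≤ ENNReal.ofReal p) :=
    ⟨by rw [← ENNReal.ofReal_one]; exact ENNReal.ofReal_le_ofReal hp1⟩
  let x : {z // z ∈ X} → Lp ℝ (ENNReal.ofReal p) μ := Subtype.val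
  have hcard : Fintype.card {z // z ∈ X} = n := by rw [Fintype.card_coe, hX]
  let P := (Finset.univ : Finset ({z // z ∈ X} × {z // z ∈ X})).filter fun e => e.1 ≠ e.2
  have hP : P.Nonempty := by
    obtain ⟨b, c, hbc⟩ := Fintype.one_lt_card_iff.1 (show 1 < Fintype.card {z // z ∈ X} by omega)
    exact ⟨(b, c), by simp [P, hbc]⟩
  obtain ⟨m0, hm0pos, hm0le⟩ : ∃ m0 : ℝ, 0 < m0 ∧ ∀ b c, b ≠ c → m0 ≤ ‖x b - x c‖ := by
    obtain ⟨b₀, hb₀, hmin⟩ := P.exists_min_image (fun e => ‖x e.1 - x e.2‖) hP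
    simp only [P, Finset.mem_filter, Finset.mem_univ, true_and] at hb₀ hmin
    exact ⟨_, norm_pos_iff.2 (sub_ne_zero.2 fun h => hb₀ (Subtype.val_injective h)),
      fun b c hbc => hmin (b, c) hbc⟩
  obtain ⟨S, w, hw, hclose⟩ := discretize hp1 x (show 0 < η * m0 / 2 by positivity)
  let y : {z // z ∈ X} → Ell p {v // v ∈ S} := fun b =>
    WithLp.toLp _ fun v => w v ^ p⁻¹ * v.1 b
  have hy : ∀ b c, ‖y b - y c‖ = (∑ v : {v // v ∈ S}, w v * |v.1 b - v.1 c| ^ p) ^ p⁻¹ := by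
    intro b c
    rw [norm_eq_rpow]
    congr 1
    refine Finset.sum_congr rfl fun v _ => ?_
    simp only [y, PiLp.sub_apply]
    rw [← mul_sub, abs_mul, abs_of_nonneg (Real.rpow_nonneg (hw v) _),
      Real.mul_rpow (Real.rpow_nonneg (hw v) _) (abs_nonneg _), Real.rpow_inv_rpow (hw v) hp0.ne']
  have hcmp : ∀ b c, (1 - η) * ‖x b - x c‖ ≤ ‖y b - y c‖ ∧
      ‖y b - y c‖ ≤ (1 + η) * ‖x b - x c‖ := by
    intro b c
    rcases eq_or_ne b c with rfl | hbc
    · simp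
    have h1 := mul_le_mul_of_nonneg_left (hm0le b c hbc) hη.le
    have h2 := abs_le.1 (hclose b c)
    rw [hy]
    constructor <;> linarith [h2.1, h2.2]
  have hyinj : Function.Injective y := fun b c h => by
    by_contra hbc
    have h1 := (hcmp b c).1
    rw [h, sub_self, norm_zero] at h1
    nlinarith [hm0le b c hbc]
  obtain ⟨d, H, hd, hH⟩ := exists_family_map y hyinj (hcard.symm ▸ hn2) hγ hγ1 hKv hη
    (by linarith) (M := M) (Nat.le_ceil _) (wd := a * Real.log n) hwd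
    (by rw [hcard]; exact hΓbig) (by rw [hcard]; exact herr)
  rw [hcard, ← hQdef] at hd
  refine ⟨fun z => if h : z ∈ X then pad (Fin.castLEEmb (Nat.le_floor hd)) (H ⟨z, h⟩) else 0,
    (1 - 7 * η) * (1 - η), mul_pos (by linarith) (by linarith), fun z hz z' hz' => ?_⟩
  simp only [dif_pos hz, dif_pos hz']
  rw [pad_sub, norm_pad]
  obtain ⟨hlo, hhi⟩ := hH ⟨z, hz⟩ ⟨z', hz'⟩
  obtain ⟨hc1, hc2⟩ := hcmp ⟨z, hz⟩ ⟨z', hz'⟩
  have hzz : ‖x ⟨z, hz⟩ - x ⟨z', hz'⟩‖ = ‖z - z'‖ := rfl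
  rw [hzz] at hc1 hc2
  have hN : 0 ≤ ‖z - z'‖ := norm_nonneg _
  constructor
  · refine le_trans ?_ hlo
    rw [mul_assoc]
    exact mul_le_mul_of_nonneg_left hc1 (by linarith)
  · refine hhi.trans ?_
    calc (1 + 7 * η) * ‖y ⟨z, hz⟩ - y ⟨z', hz'⟩‖ ≤ (1 + 7 * η) * ((1 + η) * ‖z - z'‖) :=
          mul_le_mul_of_nonneg_left hc2 (by linarith)
      _ ≤ D * ((1 - 7 * η) * (1 - η)) * ‖z - z'‖ := by
          rw [← mul_assoc]
          refine mul_le_mul_of_nonneg_right ?_ hN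
          have h1 : 0 ≤ (1 - 7 * η) * (1 - η) := mul_nonneg (by linarith) (by linarith)
          have h2 : (1 + 40 * η) * ((1 - 7 * η) * (1 - η)) ≤ D * ((1 - 7 * η) * (1 - η)) :=
            mul_le_mul_of_nonneg_right (by linarith) h1
          nlinarith [mul_le_mul_of_nonneg_left hη40 hη.le, pow_nonneg hη.le 3]

end Vale.Agent.Results.P249.SubpolyUpper
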