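import Vale.Agent.P249.Embedding

/-!
For p > 2 there is no logarithmic dimension reduction in L_p.
-/

namespace Vale.Agent.Results.P249.SuperlogLower

open Vale.Agent.P249 Filter
open scoped Topology

lemma lower_of_log {p D x y : ℝ} {n d m : ℕ} (hp : 1 ≤ p) (hD : 0 < D) (hn : 1 ≤ n)
    (hx : x = Real.log n) (hy : y = Real.log x) (hy1 : 1 ≤ y) (hx0 : 0 < x)
    (hbig : 2 ≤ x / (9 * y)) (hmdef : m = ⌊x / (9 * y)⌋₊)
    (h : AdmitsDim p D n d) :
    (1 / (fluctConst p * (18 : ℝ) ^ (p / 2))) / D ^ p * (x / y) ^ (p / 2) ≤ d := by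
  have hp0 : 0 < p := lt_of_lt_of_le one_pos hp
  have hy0 : 0 < y := by linarith
  have hm_le : (m : ℝ) ≤ x / (9 * y) := hmdef ▸ Nat.floor_le (by linarith)
  have hm_gt : x / (9 * y) < m + 1 := hmdef ▸ Nat.lt_floor_add_one _
  have hm1 : 1 ≤ m := by
    have : (1 : ℝ) < m + 1 := by linarith
    by_contra hc
    have : m = 0 := by omega
    subst this; simp at *
  have hm1' : (1 : ℝ) ≤ m := by exact_mod_cast hm1
  have hside : side m ^ m ≤ n := by
    have h8 : side m ≤ 8 * m ^ 6 := by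
      have : m ^ 5 ≤ m ^ 6 := Nat.pow_le_pow_right hm1 (by norm_num)
      unfold side; omega
    refine le_trans (Nat.pow_le_pow_left h8 m) ?_
    have hlog : Real.log ((((8 * m ^ 6) ^ m : ℕ) : ℝ)) ≤ Real.log n := by
      push_cast
      rw [Real.log_pow, Real.log_mul (by norm_num) (by positivity), Real.log_pow, ← hx]
      have hlm : Real.log m ≤ y := by
        rw [hy]
        refine Real.log_le_log (by positivity) (hm_le.trans ?_)
        rw [div_le_iff₀ (by positivity)]
        nlinarith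
      have h8 : Real.log 8 ≤ 3 := by
        rw [show (8 : ℝ) = 2 ^ (3 : ℕ) by norm_num, Real.log_pow]
        have := Real.log_two_lt_d9
        push_cast; linarith
      calc (m : ℝ) * (Real.log 8 + (6 : ℕ) * Real.log m) ≤ m * (9 * y) := by
            gcongr; push_cast; linarith
        _ ≤ x := by rwa [le_div_iff₀ (by positivity)] at hm_le
    have := (Real.log_le_log_iff (by positivity) (by exact_mod_cast hn)).1 hlog
    exact_mod_cast this
  have key := dim_lower hp hD hm1 hside h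
  have hmxy : x / y / 18 ≤ m := by
    have : x / y / 18 = x / (9 * y) / 2 := by field_simp; ring
    rw [this]; linarith
  have hK := fluctConst_pos hp0
  have h18 : (0 : ℝ) < (18 : ℝ) ^ (p / 2) := by positivity
  have hxy : (x / y) ^ (p / 2) ≤ (18 : ℝ) ^ (p / 2) * (m : ℝ) ^ (p / 2) := by
    rw [← Real.mul_rpow (by norm_num) (Nat.cast_nonneg m)]
    exact Real.rpow_le_rpow (by positivity) (by linarith) (by positivity)
  calc (1 / (fluctConst p * (18 : ℝ) ^ (p / 2))) / D ^ p * (x / y) ^ (p / 2)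
      ≤ (1 / (fluctConst p * (18 : ℝ) ^ (p / 2))) / D ^ p *
          ((18 : ℝ) ^ (p / 2) * (m : ℝ) ^ (p / 2)) := by gcongr
    _ ≤ (1 / (fluctConst p * (18 : ℝ) ^ (p / 2))) / D ^ p *
          ((18 : ℝ) ^ (p / 2) * ((d : ℝ) * (fluctConst p * D ^ p))) := by gcongr
    _ = d := by
      have : (0 : ℝ) < D ^ p := Real.rpow_pos_of_pos hD p
      field_simp

theorem result (p : ℝ) (hp : 2 < p) :
    (∃ c : ℝ, 0 < c ∧ ∀ D : ℝ, 1 ≤ D → ∀ᶠ n : ℕ in atTop, ∀ d : ℕ, AdmitsDim p D n d →
      c / D ^ p * (Real.log n / Real.log (Real.log n)) ^ (p / 2) ≤ d) ∧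
    (∀ D : ℝ, 1 ≤ D → ∀ C : ℝ, ∀ᶠ n : ℕ in atTop, ∀ d : ℕ, AdmitsDim p D n d →
      C * Real.log n < d) := by
  have hp1 : 1 ≤ p := by linarith
  have hp0 : 0 < p := by linarith
  set c := 1 / (fluctConst p * (18 : ℝ) ^ (p / 2)) with hc
  have hc0 : 0 < c := by have := fluctConst_pos hp0; positivity
  have hlogn : Tendsto (fun n : ℕ => Real.log n) atTop atTop :=
    Real.tendsto_log_atTop.comp tendsto_natCast_atTop_atTop
  have main : ∀ D : ℝ, 1 ≤ D → ∀ᶠ n : ℕ in atTop, ∀ d : ℕ, AdmitsDim p D n d →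
      c / D ^ p * (Real.log n / Real.log (Real.log n)) ^ (p / 2) ≤ d := by
    intro D hD
    have hD0 : 0 < D := by linarith
    have ev : ∀ᶠ x : ℝ in atTop, 0 < x ∧ 1 ≤ Real.log x ∧ 2 ≤ x / (9 * Real.log x) := by
      have h1 := Real.tendsto_log_atTop.eventually_ge_atTop 1
      have h2 := (Real.isLittleO_log_id_atTop).bound (show (0 : ℝ) < 1 / 18 by norm_num)
      filter_upwards [h1, h2, eventually_gt_atTop 0] with x hx1 hx2 hx0
      refine ⟨hx0, hx1, ?_⟩
      simp only [id, Real.norm_eq_abs, abs_of_pos hx0] at hx2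
      rw [abs_of_pos (by linarith)] at hx2
      rw [le_div_iff₀ (by linarith)]
      linarith
    filter_upwards [hlogn.eventually ev, eventually_ge_atTop 1] with n hn hn1 d hd
    exact lower_of_log hp1 hD0 hn1 rfl rfl hn.2.1 hn.1 hn.2.2 rfl hd
  refine ⟨⟨c, hc0, main⟩, fun D hD C => ?_⟩
  have hD0 : 0 < D := by linarith
  have hDp : (0 : ℝ) < D ^ p := Real.rpow_pos_of_pos hD0 p
  set C' := |C| + 1 with hC'
  have hC'0 : 0 < C' := by positivity
  have ev : ∀ᶠ x : ℝ in atTop, 1 < x ∧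
      C * x < c / D ^ p * (x / Real.log x) ^ (p / 2) := by
    have h2 := (isLittleO_log_rpow_rpow_atTop (p / 2) (show (0 : ℝ) < p / 2 - 1 by linarith)).bound
      (show 0 < c / D ^ p / C' by positivity)
    filter_upwards [h2, eventually_gt_atTop (1 : ℝ)] with x hx hx1
    refine ⟨hx1, ?_⟩
    have hl : 0 < Real.log x := Real.log_pos hx1
    have hx0 : 0 < x := by linarith
    rw [Real.norm_eq_abs, Real.norm_eq_abs, abs_of_pos (Real.rpow_pos_of_pos hl _),
      abs_of_pos (Real.rpow_pos_of_pos hx0 _)] at hx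
    rw [Real.div_rpow hx0.le hl.le, mul_div_assoc', lt_div_iff₀ (Real.rpow_pos_of_pos hl _)]
    have hlt : C < C' := by linarith [le_abs_self C]
    calc C * x * Real.log x ^ (p / 2) < C' * x * Real.log x ^ (p / 2) := by
          have := Real.rpow_pos_of_pos hl (p / 2)
          gcongr
      _ ≤ C' * x * (c / D ^ p / C' * x ^ (p / 2 - 1)) := by gcongr
      _ = c / D ^ p * (x * x ^ (p / 2 - 1)) := by field_simp
      _ = c / D ^ p * x ^ (p / 2) := by
          congr 1
          conv_lhs => arg 1; rw [← Real.rpow_one x]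
          rw [← Real.rpow_add hx0]; ring_nf
  filter_upwards [hlogn.eventually ev, main D hD] with n hn hmain d hd
  exact hn.2.trans_le (hmain d hd)

end Vale.Agent.Results.P249.SuperlogLower
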